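import Vale.Agent.P011ND.Grp
import Vale.Agent.P011NB.NST

/-!
Cocompactness of the integral points in the group of the automorphisms of an algebra without
nilpotent elements; finite generation.
-/

open Matrix Metric Filter Topology

namespace Vale.Agent.P011UE1

open Vale.Agent.P011ND

section ring

variable {n α R S : Type*} [Fintype n] [CommRing R] [CommRing S]

/-- The left multiplication. -/
def ad (D : Dt n α R) (v : n → R) : Matrix n n R := Matrix.of fun k => v ᵥ* D.M k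

theorem ad_mulVec (D : Dt n α R) (v y : n → R) : ad D v *ᵥ y = D.mu v y :=
  funext fun k => (dotProduct_mulVec v (D.M k) y).symm

theorem ad_map (D : Dt n α R) (φ : R →+* S) (v : n → R) :
    ad (D.map φ) (φ ∘ v) = (ad D v).map φ := by
  ext a b
  simp [ad, Dt.map, vecMul, dotProduct, map_sum]

variable [DecidableEq n]

/-- There is no nilpotent left multiplication. -/
def NoNil (D : Dt n α R) : Prop := ∀ v, IsNilpotent (ad D v) → v = 0

theorem ad_stab {D : Dt n α R} {g : Matrix n n R} (hg : D.Stab g) (v : n → R) :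
    ad D (g *ᵥ v) * g = g * ad D v := by
  refine Matrix.ext_of_mulVec_single fun j => ?_
  rw [← mulVec_mulVec, ← mulVec_mulVec, ad_mulVec, ad_mulVec, (Dt.stab_iff.1 hg).2.2]

/-- The invariant polynomials. -/
def iv (D : Dt n α R) (t : ℕ) (v : n → R) : R :=
  ((t : Matrix n n R) - ad D v).det - t ^ Fintype.card n

theorem iv_stab {D : Dt n α R} {g : Matrix n n R} (hg : D.Stab g) (hu : IsUnit g.det) (t : ℕ)
    (v : n → R) : iv D t (g *ᵥ v) = iv D t v := by
  have h : ((t : Matrix n n R) - ad D (g *ᵥ v)) * g = g * (t - ad D v) := by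
    rw [sub_mul, mul_sub, ad_stab hg, Nat.cast_comm]
  have h2 := congrArg det h
  rw [det_mul, det_mul, mul_comm] at h2
  rw [iv, hu.mul_left_cancel h2, iv]

theorem iv_map (D : Dt n α R) (φ : R →+* S) (t : ℕ) (v : n → R) :
    iv (D.map φ) t (φ ∘ v) = φ (iv D t v) := by
  rw [iv, iv, map_sub, map_pow, map_natCast, RingHom.map_det, map_sub, map_natCast, ad_map]
  rfl

theorem det_cast (t : ℕ) : (t : Matrix n n R).det = t ^ Fintype.card n := by
  rw [← diagonal_natCast, det_diagonal, Finset.prod_const, Finset.card_univ]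

theorem iv_mem {D : Dt n α R} {O : Subring R} (h : D.Int O) (t : ℕ) {v : n → R}
    (hv : ∀ a, v a ∈ O) : iv D t v ∈ O := by
  refine O.sub_mem (MI.det fun a b => O.sub_mem ?_ (O.sum_mem fun c _ =>
    O.mul_mem (hv c) (h.2.2 a c b))) (O.pow_mem (natCast_mem O t) _)
  rw [← diagonal_natCast, diagonal_apply]
  split_ifs
  exacts [natCast_mem O t, O.zero_mem]

end ring

variable {F ι : Type} [Field F] [CharZero F] [Fintype ι] [DecidableEq ι] {K : ι → Type}
  [∀ i, NontriviallyNormedField (K i)] [∀ i, ProperSpace (K i)] [∀ i, Algebra F (K i)]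
  {n α : Type} [Fintype n] [DecidableEq n] [Fintype α] {O : Subring F} {D : Dt n α F}

omit [Fintype α] in
theorem NoNil.exists_iv (h : NoNil D) {v : n → F} (hv : v ≠ 0) :
    ∃ t ∈ Finset.range (Fintype.card n + 1), iv D t v ≠ 0 := by
  classical
  by_contra hc
  push Not at hc
  have h1 : (ad D v).charpoly = Polynomial.X ^ Fintype.card n := by
    refine Polynomial.eq_of_natDegree_lt_card_of_eval_eq' _ _
      ((Finset.range (Fintype.card n + 1)).image Nat.cast) (fun x hx => ?_) ?_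
    · obtain ⟨t, ht, rfl⟩ := Finset.mem_image.1 hx
      rw [eval_charpoly, map_natCast, Polynomial.eval_pow, Polynomial.eval_X]
      exact sub_eq_zero.1 (hc t ht)
    · rw [Finset.card_image_of_injective _ Nat.cast_injective]
      simp
  refine hv (h v ⟨Fintype.card n, ?_⟩)
  simpa [h1] using aeval_self_charpoly (ad D v)

omit [DecidableEq ι] [∀ i, ProperSpace (K i)] [Fintype α] in
theorem systole (H : Pls K O) (hI : D.Int O) (hA : NoNil D) (hB : D.B.det ≠ 0) : ∃ ε : ℝ, 0 < ε ∧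
    ∀ g, (D.map (algebraMap F (∀ i, K i))).Stab g → ∀ v : n → F, (∀ a, v a ∈ O) → v ≠ 0 →
      ε ≤ ‖g *ᵥ (algebraMap F (∀ i, K i) ∘ v)‖ := by
  set φ := algebraMap F (∀ i, K i) with hφ
  have hB' : IsUnit (D.map φ).B.det := by
    change IsUnit (φ.mapMatrix D.B).det
    rw [← RingHom.map_det]
    exact (Ne.isUnit hB).map φ
  obtain ⟨ε, hε, h1⟩ : ∃ ε : ℝ, 0 < ε ∧ ∀ c ∈ O, c ≠ 0 → ε ≤ ‖φ c‖ := by
    have h2 : (φ '' {c | c ∈ O ∧ ‖φ c‖ ≤ 1} \ {0}).Finite := ((H.disc 1).image φ).sdiff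
    obtain ⟨ε, hε, h3⟩ := Metric.isOpen_iff.1 h2.isClosed.isOpen_compl 0 (by simp)
    refine ⟨min ε 1, lt_min hε one_pos, fun c hc h0 => ?_⟩
    by_contra h
    rw [not_le, lt_min_iff] at h
    exact h3 (mem_ball_zero_iff.2 h.1) ⟨⟨c, ⟨hc, h.2.le⟩, rfl⟩, fun e =>
      h0 (H.inj (e.trans (map_zero φ).symm))⟩
  have h2 : ∀ᶠ x in 𝓝 (0 : n → ∀ i, K i), ∀ t ∈ Finset.range (Fintype.card n + 1),
      ‖iv (D.map φ) t x‖ < ε := by
    refine (eventually_all_finset _).2 fun t _ => ?_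
    have hc : Continuous fun x => ‖iv (D.map φ) t x‖ := by
      have : Continuous (ad (D.map φ)) := continuous_matrix fun a b => by
        change Continuous fun x : n → ∀ i, K i => ∑ c, x c * (D.map φ).M a c b
        fun_prop
      exact ((continuous_const.sub this).matrix_det.sub continuous_const).norm
    refine hc.continuousAt.eventually_lt continuousAt_const ?_
    have : ad (D.map φ) 0 = 0 := by
      ext a b
      simp [ad]
    rwa [iv, this, sub_zero, det_cast, sub_self, norm_zero]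
  obtain ⟨δ, hδ, h3⟩ := Metric.eventually_nhds_iff.1 h2
  refine ⟨δ, hδ, fun g hg v hv h0 => ?_⟩
  by_contra h
  obtain ⟨j, hjT, hj⟩ := hA.exists_iv h0
  have h4 := h3 (y := g *ᵥ (φ ∘ v)) (by rw [dist_zero_right]; exact not_le.1 h) j hjT
  rw [iv_stab hg (IsUnit.of_mul_eq_one _ (hg.det hB')), iv_map] at h4
  exact absurd (h1 _ (iv_mem hI j hv) hj) (not_le.2 h4)

/-- **Cocompactness.** -/
theorem cocompact (H : Pls K O) (hI : D.Int O) (hA : NoNil D) (hB : D.B.det ≠ 0) :
    ∃ C : Set (Matrix n n (∀ i, K i)), IsCompact C ∧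
      ∀ g, (D.map (algebraMap F (∀ i, K i))).Stab g → ∃ δ δ' : Matrix n n F, MI O δ ∧ MI O δ' ∧
        δ * δ' = 1 ∧ D.Stab δ ∧ g * δ.map (algebraMap F (∀ i, K i)) ∈ C := by
  classical
  set φ := algebraMap F (∀ i, K i) with hφ
  obtain ⟨ε, hε, hs⟩ := systole H hI hA hB
  obtain ⟨T, hT⟩ := H.exists_mat (n := n) hε
  have hB' : IsUnit (D.map φ).B.det := by
    change IsUnit (φ.mapMatrix D.B).det
    rw [← RingHom.map_det]
    exact (Ne.isUnit hB).map φ
  set G := {g // (D.map φ).Stab g}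
  choose γ h1 h2 h3 using fun g : G => hT g.1 (g.2.det hB') (hs g.1 g.2)
  set C0 : Set (Matrix n n (∀ i, K i)) := {x | ∀ a b, ‖x a b‖ ≤ T} with hC0
  have hC : IsCompact C0 := by
    have := (isCompact_closedBall (0 : ∀ i, K i) T).matrix (m := n) (n := n)
    have e : C0 = (closedBall (0 : ∀ i, K i) T).matrix := by
      ext x
      simp [hC0, Set.mem_matrix]
    rwa [e]
  choose Z hZ hZ' using H.finite_mod
  choose z hz m hm hzm using fun (g : G) a b => hZ' _ (MI.det (h1 g)) (h2 g) _ (h1 g a b)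
  let Φ : G → (Option α ⊕ n → Matrix n n F) × F × Matrix n n F := fun g =>
    (D.lab (γ g), (γ g).det, Matrix.of (z g))
  have f1 : (Set.range fun g : G => D.lab (γ g)).Finite := by
    have hc : ∀ e, Continuous fun x => (D.map φ).lab x e := by
      rintro ((_ | a) | k) <;> unfold Dt.lab <;> fun_prop
    refine (Set.Finite.pi' fun e => H.finite_mat (hC.image (hc e))).subset ?_
    rintro _ ⟨g, rfl⟩ e
    refine ⟨hI.lab (h1 g) e, _, h3 g, ?_⟩
    simp only [g.2.lab]
    exact Dt.lab_map φ _ _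
  have f2 : (Set.range fun g : G => (γ g).det).Finite := by
    refine (f1.biUnion (t := fun L => {d : F | d * d * D.B.det = (L (.inl none)).det})
      fun L _ => ?_).subset ?_
    · by_cases h : ∃ d, d * d * D.B.det = (L (.inl none)).det
      · obtain ⟨d, hd⟩ := h
        refine ((Set.finite_singleton d).insert (-d)).subset fun x hx => ?_
        exact (mul_self_eq_mul_self_iff.1 (mul_right_cancel₀ hB (hx.trans hd.symm))).symm
      · exact Set.finite_empty.subset fun x hx => h ⟨x, hx⟩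
    · rintro _ ⟨g, rfl⟩
      refine Set.mem_biUnion ⟨g, rfl⟩ ?_
      simp only [Set.mem_ofPred_eq, Dt.lab, det_mul, det_transpose]
      ring
  have f3 : (Set.range fun g : G => Matrix.of (z g)).Finite := by
    refine (Set.Finite.pi' fun _ : n => Set.Finite.pi' fun _ : n =>
      f2.biUnion fun d _ => hZ d).subset ?_
    rintro _ ⟨g, rfl⟩ a b
    exact Set.mem_biUnion ⟨g, rfl⟩ (hz g a b)
  have hΦ : (Φ '' Set.univ).Finite := (f1.prod (f2.prod f3)).subset (by
    rintro _ ⟨g, -, rfl⟩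
    exact ⟨⟨g, rfl⟩, ⟨g, rfl⟩, g, rfl⟩)
  obtain ⟨R, -, hR⟩ := Set.exists_subset_bijOn Set.univ Φ
  have hRf : R.Finite := Set.Finite.of_finite_image (hR.image_eq ▸ hΦ) hR.injOn
  have key : ∀ g g' : G, Φ g = Φ g' → MI O (γ g * (γ g')⁻¹) := by
    intro g g' e
    have e2 : (γ g).det = (γ g').det := congrArg (·.2.1) e
    have e3 : Matrix.of (z g) = Matrix.of (z g') := congrArg (·.2.2) e
    have e4 : γ g = γ g' + (γ g').det • Matrix.of fun a b => m g a b - m g' a b := by
      ext a b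
      have e5 : z g a b = z g' a b := congrFun (congrFun e3 a) b
      simp only [Matrix.add_apply, Matrix.smul_apply, of_apply, smul_eq_mul]
      have e6 := hzm g a b
      have e7 := hzm g' a b
      rw [e2, e5] at e6
      linear_combination e6 - e7
    have e8 : (γ g').det • (γ g')⁻¹ = (γ g').adjugate := by
      rw [inv_def, smul_smul, Ring.mul_inverse_cancel _ (Ne.isUnit (h2 g')), one_smul]
    rw [e4, add_mul, mul_nonsing_inv _ (Ne.isUnit (h2 g')), smul_mul_assoc, ← mul_smul_comm, e8]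
    intro a b
    exact O.add_mem (MI.one a b) (MI.mul (fun a b => O.sub_mem (hm g a b) (hm g' a b))
      (MI.adj (h1 g')) a b)
  refine ⟨⋃ r ∈ R, (fun x => x * ((γ r)⁻¹).map φ) '' C0,
    hRf.isCompact_biUnion fun r _ => hC.image (by fun_prop), fun g hg => ?_⟩
  obtain ⟨r, hr, e⟩ : Φ ⟨g, hg⟩ ∈ Φ '' R := hR.image_eq ▸ ⟨_, trivial, rfl⟩
  refine ⟨_, _, key _ _ e.symm, key _ _ e, ?_, Dt.stab_of_lab (Ne.isUnit hB)
    (mul_nonsing_inv _ (Ne.isUnit (h2 r))) (congrArg (·.1) e).symm,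
    Set.mem_biUnion hr ⟨_, h3 ⟨g, hg⟩, ?_⟩⟩
  · rw [mul_assoc, ← mul_assoc (γ r)⁻¹, nonsing_inv_mul _ (Ne.isUnit (h2 r)), one_mul,
      mul_nonsing_inv _ (Ne.isUnit (h2 _))]
  · simp only [Matrix.map_mul, mul_assoc]
    rfl

variable {Γ : Type} [Group Γ] (r : Γ →* Matrix n n F)

theorem cocp (H : Pls K O) (hI : D.Int O) (hA : NoNil D) (hB : D.B.det ≠ 0)
    (hsurj : ∀ g, D.Stab g → ∃ γ, r γ = g) :
    ∃ C : Set (GG K n), IsCompact C ∧ ∀ g ∈ St K D, ∃ d ∈ DO r O, (pp K r d)⁻¹ * g ∈ C := by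
  obtain ⟨C, hC, h⟩ := cocompact H hI hA hB
  let ev : ∀ i, Matrix n n (∀ i, K i) → Matrix n n (K i) := fun i x => x.map (Pi.evalRingHom K i)
  have hev : ∀ i, Continuous (ev i) := fun i =>
    continuous_id.matrix_map (continuous_apply i)
  let iv : ∀ i, Matrix n n (K i) → Matrix n n (K i) := fun i x =>
    (D.map (algebraMap F (K i))).B⁻¹ * xᵀ * (D.map (algebraMap F (K i))).B
  have hiv : ∀ i, Continuous (iv i) := fun i => by fun_prop
  refine ⟨Set.univ.pi fun i => Units.embedProduct _ ⁻¹' ((iv i '' (ev i '' C)) ×ˢ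
    (MulOpposite.op '' (ev i '' C))), isCompact_univ_pi fun i =>
      Units.isClosedEmbedding_embedProduct.isCompact_preimage
        (((hC.image (hev i)).image (hiv i)).prod ((hC.image (hev i)).image
          MulOpposite.continuous_op)), fun g hg => ?_⟩
  have hg' : (D.map (algebraMap F (∀ i, K i))).Stab (gl g⁻¹) := by
    have h1 := (St K D).inv_mem hg
    refine ⟨fun a => ?_, ?_, fun k => ?_⟩ <;> ext c d i
    · simpa [mul_apply, gl, Dt.map] using congrFun (congrFun ((h1 i).1 a) c) d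
    · simpa [mul_apply, gl, Dt.map] using congrFun (congrFun (h1 i).2.1 c) d
    · simpa [mul_apply, gl, Dt.map, Matrix.sum_apply] using congrFun (congrFun ((h1 i).2.2 k) c) d
  obtain ⟨δ, δ', h1, h2, h3, h4, h5⟩ := h _ hg'
  obtain ⟨d, rfl⟩ := hsurj δ h4
  have h6 : r d⁻¹ = δ' := by
    rw [← one_mul δ', ← map_one r, ← inv_mul_cancel d, map_mul, mul_assoc, h3, mul_one]
  refine ⟨d, ⟨h1, h6 ▸ h2⟩, fun i _ => ?_⟩
  have h7 : ((((pp K r d)⁻¹ * g) i)⁻¹ : (Matrix n n (K i))ˣ).val =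
      ev i (gl g⁻¹ * (r d).map (algebraMap F (∀ i, K i))) := by
    simp only [Pi.mul_apply, Pi.inv_apply, _root_.mul_inv_rev, inv_inv, Units.val_mul, ev,
      Matrix.map_mul]
    rfl
  have h8 : (D.map (algebraMap F (K i))).Stab ((((pp K r d)⁻¹ * g) i)⁻¹ :
      (Matrix n n (K i))ˣ).val := by
    simp only [Pi.mul_apply, Pi.inv_apply, _root_.mul_inv_rev, inv_inv, Units.val_mul]
    exact ((St K D).inv_mem hg i).mul (h4.map (algebraMap F (K i)))
  have hB' : IsUnit (D.map (algebraMap F (K i))).B.det := by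
    change IsUnit ((algebraMap F (K i)).mapMatrix D.B).det
    rw [← RingHom.map_det]
    exact (Ne.isUnit hB).map _
  refine ⟨⟨_, ⟨_, h5, h7.symm⟩, ?_⟩, _, ⟨_, h5, h7.symm⟩, rfl⟩
  have h9 := h8.inv_eq hB'
  exact (Units.inv_mul_eq_one.1 h9).symm

/-- A proper cocompact subgroup of a compactly generated group is finitely generated. -/
theorem fg_of_coc {L G : Type*} [Group L] [Group G] [TopologicalSpace G] [IsTopologicalGroup G]
    (p : L →* G) (D : Subgroup L) {W : Set G} (hW : IsCompact W)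
    (hprop : ∀ K : Set G, IsCompact K → {d : L | d ∈ D ∧ p d ∈ K}.Finite)
    (hcoc : ∃ C : Set G, IsCompact C ∧ ∀ g ∈ Subgroup.closure W, ∃ d ∈ D,
      p d ∈ Subgroup.closure W ∧ (p d)⁻¹ * g ∈ C) :
    (D ⊓ (Subgroup.closure W).comap p).FG := by
  open scoped Pointwise in
  obtain ⟨C, hC, hc⟩ := hcoc
  have h1 := hprop _ ((((hC.insert 1).mul ((hW.union hW.inv).insert 1))).mul (hC.insert 1).inv)
  set S := {d : L | d ∈ D ∧ p d ∈ insert 1 C * insert 1 (W ∪ W⁻¹) * (insert 1 C)⁻¹} ∩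
    (Subgroup.closure W).comap p
  have h2 : Subgroup.closure S ≤ D ⊓ (Subgroup.closure W).comap p :=
    (Subgroup.closure_le _).2 fun d hd => ⟨hd.1.1, hd.2⟩
  have h3 : ∀ g ∈ Subgroup.closure W, ∀ w ∈ W ∪ W⁻¹, w ∈ Subgroup.closure W →
      (∃ d ∈ Subgroup.closure S, (p d)⁻¹ * g ∈ insert 1 C) →
      ∃ d ∈ Subgroup.closure S, (p d)⁻¹ * (g * w) ∈ insert 1 C := by
    rintro g hg w hw hw' ⟨d, hd, e⟩
    obtain ⟨d', a, b, c⟩ := hc _ (mul_mem (mul_mem (inv_mem (h2 hd).2) hg) hw')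
    refine ⟨d * d', mul_mem hd (Subgroup.subset_closure ⟨⟨a, _, ⟨_, e, w, Or.inr hw, rfl⟩, _,
      Set.inv_mem_inv.2 (Or.inr c), by simp [mul_assoc]⟩, b⟩), Or.inr ?_⟩
    simpa [mul_assoc] using c
  have h4 : ∀ g ∈ Subgroup.closure W, ∃ d ∈ Subgroup.closure S, (p d)⁻¹ * g ∈ insert 1 C := by
    intro g hg
    induction hg using Subgroup.closure_induction_right with
    | one => exact ⟨1, one_mem _, by simp⟩
    | mul_right g hg w hw ih => exact h3 g hg w (Or.inl hw) (Subgroup.subset_closure hw) ih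
    | mul_inv_cancel g hg w hw ih =>
      exact h3 g hg w⁻¹ (Or.inr (Set.inv_mem_inv.2 hw)) (inv_mem (Subgroup.subset_closure hw)) ih
  refine (Subgroup.fg_iff _).2 ⟨S, le_antisymm h2 fun x hx => ?_, h1.subset Set.inter_subset_left⟩
  obtain ⟨d, hd, e⟩ := h4 _ hx.2
  have h5 : d⁻¹ * x ∈ S := ⟨⟨mul_mem (inv_mem (h2 hd).1) hx.1, _, ⟨_, e, 1, Or.inl rfl, rfl⟩, 1,
    Set.mem_inv.2 (Or.inl inv_one), by simp⟩, mul_mem (inv_mem (h2 hd).2) hx.2⟩
  simpa using mul_mem hd (Subgroup.subset_closure h5)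

end Vale.Agent.P011UE1
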