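import Vale.Agent.P011UE1.Coc
import Vale.Agent.P011NC.Glob
import Vale.Agent.P011UE0.Idx

/-! The adelic setting of an algebra with involution without singular elements. -/

namespace Vale.Agent.P011UE1

open Module Topology Filter TensorProduct Vale.Agent.P011NC Vale.Agent.P011UE0

variable {k A Ω : Type} [Field k] [Ring A] [StarRing A] [Algebra k A] [Field Ω] [Algebra k Ω]
  {n : ℕ} {P : Type} {a : P → AbsoluteValue k ℝ} (G : GF k a) (M : Mdl k A Ω n)

/-- A singular element of the image of the splitting is zero. -/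
def Ani : Prop := ∀ x, (M.f x).det = 0 → M.f x = 0

variable {M} in
theorem Ani.red (hd : Ani M) (hn : 0 < n) : IsReduced A := by
  have h : ∀ x : A, IsNilpotent x → M.f x = 0 := fun x ⟨m, hm⟩ => hd x (by
    have : Nonempty (Fin n) := ⟨⟨0, hn⟩⟩
    refine IsNilpotent.eq_zero ⟨m, ?_⟩
    rw [← Matrix.det_pow, ← map_pow, hm, map_zero, Matrix.det_zero])
  exact ⟨fun x hx => M.inj (h x hx) (h _ (hx.imp fun m hm => by rw [← star_pow, hm, star_zero]))⟩

theorem det_star {g : unitary A} (hg : g ∈ M.SU) : (M.f (star (g : A))).det = 1 := by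
  rw [← mul_one (Matrix.det _), ← M.mem_SU.1 hg, ← Matrix.det_mul, ← map_mul, g.2.1, map_one,
    Matrix.det_one, M.mem_SU.1 hg]

variable {S : Finset P} (h1 : G.arch ⊆ S) (hn : 0 < n) (h2 : S.Nonempty)

include hn h2 in
theorem det_zero {t : k} (t1 : ∀ v ∉ S, a v t ≤ 1) (t2 : ∀ v ∈ S, 1 < a v t) {x y : A}
    (e : (M.f y).det = (M.f x).det) (hx : ∀ v ∉ S, ‖G.j M v x‖ ≤ 1)
    (hy : ∀ v ∈ S, ‖G.j M v (t • y)‖ ≤ 1) : (M.f x).det = 0 := by
  by_contra h0
  have hp : ∀ (v : P) (z : A) (m : ℕ), ‖G.j M v z‖ ≤ 1 → ‖G.j M v (z ^ m)‖ ≤ 1 := fun v z m h => by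
    induction m with
    | zero => rw [pow_zero, map_one, M.norm_one_Ev _ hn]
    | succ m ih =>
      rw [pow_succ, map_mul]
      exact (norm_mul_le _ _).trans (mul_le_one₀ ih (norm_nonneg _) h)
  have hs : ∀ z : A, (M.f (t • z)).det = algebraMap k Ω t ^ n * (M.f z).det := fun z => by
    rw [map_smul, ← algebraMap_smul Ω, Matrix.det_smul, Fintype.card_fin]
  have hf := G.det_fin M (c := fun _ => 1) (by simp)
  refine (Set.infinite_univ.exists_ne_map_eq_of_mapsTo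
    (f := fun m : ℕ => ((M.f x).det ^ m, (algebraMap k Ω t ^ n * (M.f x).det) ^ m))
    (fun m _ => Set.mk_mem_prod (fun v => ?_) fun v => ?_) (hf.prod hf)).elim ?_
  rotate_right
  · rintro i ⟨-, j, -, hij, e'⟩
    obtain ⟨v, hv⟩ := h2
    obtain ⟨e1, e2⟩ := Prod.ext_iff.1 e'
    simp only [mul_pow] at e1 e2
    rw [e1, mul_left_inj' (pow_ne_zero _ h0), ← pow_mul, ← pow_mul, ← map_pow, ← map_pow] at e2
    have e3 := congrArg (a v) ((algebraMap k Ω).injective e2)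
    rw [map_pow, map_pow] at e3
    exact hij (Nat.eq_of_mul_eq_mul_left hn (pow_right_injective₀ (zero_lt_one.trans (t2 v hv))
      (t2 v hv).ne' e3))
  · by_cases hv : v ∈ S
    · refine ⟨y ^ m, by rw [map_pow, Matrix.det_pow, e], hp v _ m (le_trans ?_ (hy v hv))⟩
      rw [G.norm_j_smul]
      exact le_mul_of_one_le_left (norm_nonneg _) (t2 v hv).le
    · exact ⟨x ^ m, by rw [map_pow, Matrix.det_pow], hp v _ m (hx v hv)⟩
  · by_cases hv : v ∈ S
    · exact ⟨(t • y) ^ m, by rw [map_pow, Matrix.det_pow, hs, e], hp v _ m (hy v hv)⟩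
    · refine ⟨(t • x) ^ m, by rw [map_pow, Matrix.det_pow, hs], hp v _ m ?_⟩
      rw [G.norm_j_smul]
      exact mul_le_one₀ (t1 v hv) (norm_nonneg _) (hx v hv)

theorem jS_star (x : A) : G.jS M S (star x) = star (G.jS M S x) := rfl

include h2 in
theorem ulat (hd : Ani M) : ∃ τ τ', ULat {x | ∃ g ∈ M.SU, G.jS M S g = x}
    ((G.Lam M h1 hn).map (G.jS M S)) τ τ' := by
  obtain ⟨t, t1, t2⟩ := G.exists_exp h1 h2
  have t0 : t ≠ 0 := h2.elim fun v hv e => by simpa [e, not_lt_of_ge zero_le_one] using t2 v hv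
  refine ⟨G.jS M S (t • 1), G.jS M S (t⁻¹ • 1), ?_, ?_, ?_, ?_, fun C hC => ?_, ?_,
    Units.isOpen.mem_nhds isUnit_one, ⟨_, G.smul_mem_Lam M h1 hn t1 (one_mem _), rfl⟩,
    fun x => funext fun v => ?_, ?_, fun C hC V hV => ?_⟩
  · rintro _ ⟨g, -, rfl⟩
    exact ⟨(map_mul (G.jS M S) (star (g : A)) _).symm.trans (by rw [g.2.1, map_one]),
      (map_mul (G.jS M S) _ (star (g : A))).symm.trans (by rw [g.2.2, map_one])⟩
  · rintro _ ⟨g, hg, rfl⟩
    exact ⟨g⁻¹, inv_mem hg, rfl⟩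
  · have c1 : Continuous fun z => (‖G.jS M S (t • 1) * z‖, ‖G.jS M S (t • 1) * star z‖) := by
      fun_prop
    refine ⟨_, (c1.tendsto' 0 (0, 0) (by simp)).eventually (prod_mem_nhds
      (Iic_mem_nhds one_pos) (Iic_mem_nhds one_pos)), ?_⟩
    rintro _ ⟨g, hg, rfl⟩ _ ⟨x, hx, rfl⟩ ⟨e1, e2⟩
    have e3 : ‖G.jS M S (t • ((g : A) * x))‖ ≤ 1 := by
      rw [← one_mul ((g : A) * x), ← smul_mul_assoc, map_mul, map_mul]
      exact e1
    have e4 : ‖G.jS M S (t • star ((g : A) * x))‖ ≤ 1 := by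
      rw [← one_mul (star ((g : A) * x)), ← smul_mul_assoc, map_mul, jS_star, map_mul (G.jS M S) (g : A)]
      exact e2
    rw [M.inj (hd x (det_zero G M hn h2 t1 t2 (y := g * x) ?_ (fun v hv => (hx v hv).1)
      fun v hv => (norm_le_pi_norm _ (⟨v, hv⟩ : S)).trans e3)) (hd _ (det_zero G M hn h2 t1 t2
      (y := star ((g : A) * x)) ?_ (fun v hv => (hx v hv).2)
      fun v hv => (norm_le_pi_norm _ (⟨v, hv⟩ : S)).trans e4)), map_zero]
    · rw [map_mul, Matrix.det_mul, M.mem_SU.1 hg, one_mul]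
    · rw [star_mul, map_mul, Matrix.det_mul, det_star M hg, mul_one]
  · rintro _ ⟨x, hx, rfl⟩
    exact ⟨star x, fun v hv => ⟨(hx v hv).2, by rw [star_star]; exact (hx v hv).1⟩, rfl⟩
  · classical
    obtain ⟨R, hR⟩ := hC.isBounded.exists_norm_le
    refine ((G.disc_j M (fun v => if v ∈ S then R else 1) (S.finite_toSet.subset fun v hv => ?_)).image
      (G.jS M S)).subset ?_
    · by_contra h
      rw [Set.mem_ofPred_eq, if_neg (show v ∉ S from h)] at hv
      exact lt_irrefl _ hv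
    · rintro _ ⟨hx, x, hx', rfl⟩
      refine ⟨x, fun v => ?_, rfl⟩
      split_ifs with h
      · exact (norm_le_pi_norm (G.jS M S x) ⟨v, h⟩).trans (hR _ hx)
      · exact (hx' v h).1
  · obtain ⟨R, hR⟩ := G.Lam_coc M h1 hn h2
    refine ⟨_, isCompact_closedBall 0 R, fun x => ?_⟩
    obtain ⟨y, hy, e⟩ := hR x
    exact ⟨_, ⟨y, hy, rfl⟩, mem_closedBall_zero_iff.2 e⟩
  · change G.j M v (t • 1) * x v = x v * G.j M v (t • 1)
    rw [M.jE_smul, map_one, smul_mul_assoc, mul_smul_comm, one_mul, mul_one]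
  · rw [← map_mul, smul_mul_smul_comm, mul_inv_cancel₀ t0, one_mul, one_smul, map_one]
  · have h3 : ‖G.jS M S (t⁻¹ • 1)‖ < 1 := (pi_norm_lt_iff one_pos).2 fun v => by
      change ‖G.j M v _‖ < 1
      rw [G.norm_j_smul, map_one, M.norm_one_Ev _ hn, mul_one, map_inv₀]
      exact inv_lt_one_of_one_lt₀ (t2 v v.2)
    exact ((tendsto_pow_atTop_nhds_zero_of_norm_lt_one h3).eventually
      (hC.eventually_forall_of_forall_eventually (P := fun s x => s * x ∈ V) fun y _ =>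
        (continuous_mul.tendsto' (0, y) 0 (zero_mul y)).eventually hV)).exists

include h1 hn h2 in
theorem coc_SU (hd : Ani M) : ∃ R : ℝ, ∀ g ∈ M.SU, ∃ d ∈ M.SU,
    (∀ v ∉ S, ‖G.j M v d‖ ≤ 1 ∧ ‖G.j M v (star d)‖ ≤ 1) ∧ ∀ v ∈ S, ‖G.j M v (g * d)‖ ≤ R := by
  classical
  obtain ⟨τ, τ', hL⟩ := ulat G M h1 hn h2 hd
  obtain ⟨C, hC, h⟩ := hL.unitary_coc
  obtain ⟨R, hR⟩ := hC.isBounded.exists_norm_le
  let W := {w : unitary A | (w : A) ∈ G.Lam M h1 hn ∧ ∃ g ∈ M.SU, ‖G.jS M S (g * w)‖ ≤ R}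
  have h3 : ((fun w : unitary A => (M.f w).det) '' W).Finite := by
    refine (G.det_fin M (c := fun v => if v ∈ S then R else 1)
      (S.finite_toSet.subset fun v hv => ?_)).subset ?_
    · by_contra h
      rw [Set.mem_ofPred_eq, if_neg (show v ∉ S from h)] at hv
      exact lt_irrefl _ hv
    rintro _ ⟨w, ⟨hw, g, hg, e⟩, rfl⟩ v
    split_ifs with h
    · exact ⟨g * w, by rw [map_mul, Matrix.det_mul, M.mem_SU.1 hg, one_mul],
        (norm_le_pi_norm _ (⟨v, h⟩ : S)).trans e⟩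
    · exact ⟨w, rfl, (hw v h).1⟩
  obtain ⟨T, hT, hT', e⟩ := Set.Finite.exists_subset_finite_image_eq h3 (subset_refl _)
  obtain ⟨B, hB⟩ := (hT'.image fun w : unitary A => ‖G.jS M S (star w)‖).bddAbove
  refine ⟨|R| * B, fun g hg => ?_⟩
  obtain ⟨_, ⟨w, hw, rfl⟩, h4, h5⟩ := h (G.jS M S g) ⟨g, hg, rfl⟩
  let u : unitary A := ⟨w, G.jS_inj M h2 ((map_mul _ _ _).trans (h4.1.trans (map_one _).symm)),
    G.jS_inj M h2 ((map_mul _ _ _).trans (h4.2.trans (map_one _).symm))⟩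
  rw [← map_mul] at h5
  obtain ⟨r, hr, e'⟩ := e.ge ⟨u, ⟨hw, g, hg, hR _ h5⟩, rfl⟩
  refine ⟨u * r⁻¹, M.mem_SU.2 ?_, (G.Lam M h1 hn).mul_mem hw (fun v hv => ⟨((hT hr).1 v hv).2, by
    rw [← Unitary.star_eq_inv, Unitary.coe_star, star_star]
    exact ((hT hr).1 v hv).1⟩), fun v hv => ?_⟩
  · rw [Submonoid.coe_mul, map_mul, Matrix.det_mul]
    exact (congrArg (· * _) e'.symm).trans (by
      rw [← Matrix.det_mul, ← map_mul, ← Submonoid.coe_mul, mul_inv_cancel]; simp)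
  · refine (norm_le_pi_norm (G.jS M S _) ⟨v, hv⟩).trans ?_
    rw [Submonoid.coe_mul, ← mul_assoc, map_mul]
    exact (norm_mul_le _ _).trans (mul_le_mul ((hR _ h5).trans (le_abs_self R)) (hB ⟨r, hr, rfl⟩)
      (norm_nonneg _) (abs_nonneg _))

variable (Ω) in
/-- A common extension of the completion and of the splitting field. -/
def Om (v : P) : Type := (G.Fv v ⊗[k] Ω) ⧸ (Ideal.exists_maximal (G.Fv v ⊗[k] Ω)).choose

noncomputable instance instFieldOm (v : P) : Field (Om Ω G v) :=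
  haveI := (Ideal.exists_maximal (G.Fv v ⊗[k] Ω)).choose_spec
  Ideal.Quotient.field _

noncomputable instance instAlgOm (v : P) : Algebra (G.Fv v) (Om Ω G v) :=
  inferInstanceAs (Algebra (G.Fv v) ((G.Fv v ⊗[k] Ω) ⧸ (_ : Ideal _)))

noncomputable instance instAlgOm' (v : P) : Algebra k (Om Ω G v) :=
  inferInstanceAs (Algebra k ((G.Fv v ⊗[k] Ω) ⧸ (_ : Ideal _)))

instance (v : P) : IsScalarTower k (G.Fv v) (Om Ω G v) :=
  inferInstanceAs (IsScalarTower k (G.Fv v) ((G.Fv v ⊗[k] Ω) ⧸ (_ : Ideal _)))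

variable (Ω) in
/-- The embedding of the splitting field. -/
noncomputable def psi (v : P) : Ω →ₐ[k] Om Ω G v :=
  (Ideal.Quotient.mkₐ k _).comp Algebra.TensorProduct.includeRight

/-- **The adelic setting.** -/
noncomputable def adl (hn : 2 ≤ n) (hd : Ani M) : Adl k A Ω n G.Fv (G.E M) (Om Ω G) where
  M := M
  L := fun v => M.locM _ (Om Ω G v) (psi Ω G v)
  j := G.j M
  arch := G.arch
  le := hn
  red := hd.red (by omega)
  j_star := fun v => M.jE_star _
  j_om := fun _ => rfl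
  j_inj := fun v => M.jE_inj _
  j_det := fun v x e => by rw [M.det_locM, e, map_one]
  norm_one := fun v => M.norm_one_Ev _ (by omega)
  ultra := fun v hv => have := G.ultra_Fv hv; M.ultra_Ev _
  ex := G.ex
  fin := G.fin_j M
  disc := G.disc_j M
  wa := fun S x ε hε => ((G.wa_j M S).exists_dist_lt (fun v => x v) hε).imp fun y hy v hv =>
    ((dist_eq_norm' _ _).symm.le.trans (dist_le_pi_dist (fun v : S => x v)
      (fun v : S => G.j M v y) ⟨v, hv⟩)).trans_lt hy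
  coc := fun S h1 h2 => coc_SU G M h1 (by omega) h2 hd

end Vale.Agent.P011UE1
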