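import Vale.Agent.P011UE1.Mah
import Vale.Agent.P011UT4.Defs

/-!
Cocompactness for the automorphism group of an anisotropic Lie algebra.
-/

open Matrix

namespace Vale.Agent.P011UE1

open Vale.Agent.P011ND Vale.Agent.P011UT4

/-- The multiple of the tensors. -/
def sc {n α R : Type} [CommRing R] (D : Dt n α R) (c : R) : Dt n α R :=
  ⟨D.A, c • D.B, fun k => c • D.M k⟩

theorem stab_sc {n α R : Type} [Fintype n] [CommRing R] {D : Dt n α R} {g : Matrix n n R}
    (h : D.Stab g) (c : R) : (sc D c).Stab g := by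
  refine ⟨h.1, ?_, fun k => ?_⟩
  · change gᵀ * (c • D.B) * g = c • D.B
    rw [Matrix.mul_smul, Matrix.smul_mul, h.2.1]
  · change ∑ l, g k l • c • D.M l = gᵀ * (c • D.M k) * g
    rw [Matrix.mul_smul, Matrix.smul_mul, ← h.2.2, Finset.smul_sum]
    exact Finset.sum_congr rfl fun l _ => smul_comm _ _ _

theorem sc_map {n α R S : Type} [CommRing R] [CommRing S] (D : Dt n α R) (c : R) (φ : R →+* S) :
    (sc D c).map φ = sc (D.map φ) (φ c) := by
  simp only [sc, Dt.map, Dt.mk.injEq, true_and]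
  exact ⟨by ext; simp, by ext; simp⟩

theorem sc_sc {n α R : Type} [Field R] (D : Dt n α R) {c : R} (hc : c ≠ 0) :
    sc (sc D c) c⁻¹ = D := by
  simp [sc, smul_smul, inv_mul_cancel₀ hc]

theorem coc : COC := by
  intro k ι n _ _ _ _ _ E _ _ _ O M H hB hA Γ _ r hs
  classical
  choose m h1 h2 h3 using fun j : Option n => H.exists_den (j.elim (dt M).B M)
  have h4 : ∀ j : Option n, MI O ((∏ j, m j) • (j.elim (dt M).B M : Matrix n n k)) := fun j a b => by
    rw [← Finset.prod_erase_mul _ _ (Finset.mem_univ j), mul_smul]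
    exact O.mul_mem (O.prod_mem fun p _ => h1 p) (h3 j a b)
  have h5 : ∏ j, m j ≠ 0 := Finset.prod_ne_zero_iff.2 fun j _ => h2 j
  refine (cocp (D := sc (dt M) (∏ j, m j)) r H
    ⟨fun a => a.elim, h4 none, fun j => h4 (some j)⟩ (fun v hv => hA v ?_) ?_
    fun g hg => hs g (sc_sc (dt M) h5 ▸ stab_sc hg _)).imp fun C h => ⟨h.1, fun g hg =>
      h.2 g fun i => sc_map (dt M) _ (algebraMap k (E i)) ▸ stab_sc (hg i) _⟩
  · have e : adm M v = (∏ j, m j)⁻¹ • ad (sc (dt M) (∏ j, m j)) v := by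
      rw [eq_inv_smul_iff₀ h5]
      ext a b
      simp [adm, ad, sc, dt, vecMul, dotProduct, Finset.mul_sum, mul_left_comm]
    rw [e]
    exact hv.smul _
  · change ((∏ j, m j) • (dt M).B).det ≠ 0
    rw [det_smul]
    exact mul_ne_zero (pow_ne_zero _ h5) hB

end Vale.Agent.P011UE1
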